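import Vale.Agent.P065.UB.P.Defs
import Vale.Agent.P065.UB.H759.PJ2

/-!
# P065, upper bound, line P: assembly `StP0 → StS35 → StS67 → StPJ → StU2 → StPoly` (helper602)
-/

set_option autoImplicit false

namespace Vale.Agent.P065.UB.H602

open Finset P H759

/-- **line P**: the assembly -/
theorem stPoly_of (h0 : StP0) (h35 : StS35) (h67 : StS67) (hJ : StPJ) (hU : StU2) :
    StPoly := by
  intro A
  obtain ⟨q, hq⟩ := h0 A
  obtain ⟨r35, hr35, H35⟩ := h35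
  obtain ⟨r67, hr67, H67⟩ := h67
  obtain ⟨s, HJ⟩ := hJ
  obtain ⟨C0, HU⟩ := hU
  obtain ⟨cJ, HJ⟩ := HJ C0
  obtain ⟨c67, H67⟩ := H67 cJ
  obtain ⟨c35, H35⟩ := H35 (max c67 (r67 * cJ))
  obtain ⟨c, hc⟩ : ∃ c : ℕ, c = max (max c35 (max c67 (r67 * cJ)))
      (max (max cJ 1) (r35 * (r67 * cJ))) := ⟨_, rfl⟩
  obtain ⟨ε, hε, n₀, H⟩ := hq c
  refine ⟨ε, hε, n₀, fun P k hP hI hn => ?_⟩
  by_contra hcon
  rw [not_lt] at hcon
  obtain ⟨K, kp, Kp, ks, Kpp, L, lam, N, del, P', Q, W, a, b, hH, hnl, hdel, hcl, hlog, hW⟩ :=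
    H P k hP hI hn hcon
  have e1 : c35 ≤ c := by rw [hc]; exact (le_max_left _ _).trans (le_max_left _ _)
  have e2 : c67 ≤ c := by
    rw [hc]; exact (le_max_left _ _).trans ((le_max_right _ _).trans (le_max_left _ _))
  have e4 : cJ ≤ c := by
    rw [hc]; exact (le_max_left _ _).trans ((le_max_left _ _).trans (le_max_right _ _))
  have e5 : 1 ≤ c := by
    rw [hc]; exact (le_max_right _ _).trans ((le_max_left _ _).trans (le_max_right _ _))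
  have e6 : r35 * (r67 * cJ) ≤ c := by
    rw [hc]; exact (le_max_right _ _).trans (le_max_right _ _)
  clear hc
  have hK := hH.hK
  have hK1 : 1 ≤ K := by linarith
  have hkp0 := hH.kp0
  have hks0 := hH.ks0
  have hKc1 : 1 ≤ K ^ c := one_le_pow₀ hK1
  have hKKp : K ^ c ≤ Kp := by
    have h1 := hH.kp1
    have h2 := hH.Kp1
    have : K ^ c * 1 ≤ K ^ c * (kp * Kp) := mul_le_mul_of_nonneg_left h2 (by positivity)
    have hKp0 : 0 ≤ Kp := by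
      by_contra hh
      rw [not_le] at hh
      nlinarith
    nlinarith
  have hKp1 : 1 ≤ Kp := hKc1.trans hKKp
  have hKpc1 : 1 ≤ Kp ^ c := one_le_pow₀ hKp1
  have hKpKpp : Kp ^ c ≤ Kpp := by
    have h1 := hH.ks1
    have h2 := hH.Kpp1
    have h3 : Kp ^ c * 1 ≤ Kp ^ c * (ks * Kpp) := mul_le_mul_of_nonneg_left h2 (by positivity)
    have hKpp0 : 0 ≤ Kpp := by
      by_contra hh
      rw [not_le] at hh
      nlinarith
    nlinarith
  have hKpp1 : 1 ≤ Kpp := hKpc1.trans hKpKpp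
  have hL1 : 1 ≤ L := (one_le_pow₀ hKpp1).trans hH.hL
  -- monotone in the constant
  have hmono : ∀ c' : ℕ, c' ≤ c → Hier c' K kp Kp ks Kpp L lam N := by
    intro c' hc'
    refine ⟨hH.hK, hH.kp0, ?_, hH.Kp1, hH.ks0, ?_, hH.Kpp1, ?_, ?_, hH.hN⟩
    · exact (mul_le_mul_of_nonneg_right (pow_le_pow_right₀ hK1 hc') hkp0.le).trans hH.kp1
    · exact (mul_le_mul_of_nonneg_right (pow_le_pow_right₀ hKp1 hc') hks0.le).trans hH.ks1
    · exact (pow_le_pow_right₀ hKpp1 hc').trans hH.hL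
    · exact (pow_le_pow_right₀ hL1 hc').trans hH.hlam
  obtain ⟨k3, W', be, T, hk3, hk3', hk3p, hW'W, hN2⟩ :=
    H35 K kp Kp ks Kpp L lam N del P' k Q W a b (hmono c35 e1) hW
  have hK1' : 1 ≤ K ^ r35 := one_le_pow₀ hK1
  have hK2' : 2 ≤ K ^ r35 := hK.trans (le_self_pow₀ hK1 (by omega))
  have hKppl : Kpp ^ c67 ≤ lam := by
    have h1 := (hmono c67 e2).hL
    have h2 : L ≤ lam := (le_self_pow₀ hL1 (by omega)).trans hH.hlam
    exact h1.trans h2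
  have hk3c : ∀ x : ℕ, x ≤ max c67 (r67 * cJ) → (K ^ r35) ^ x * k3 ≤ 1 := fun x hx =>
    (mul_le_mul_of_nonneg_right (pow_le_pow_right₀ hK1' hx) hk3.le).trans hk3'
  obtain ⟨k4, W2, T', hk4, hk4', hN3⟩ := H67 (K ^ r35) k3 Kp ks Kpp lam N del P' k Q W' a b be T
    hK2' hk3 (hk3c c67 (le_max_left _ _)) hk3p hks0 (hmono c67 e2).ks1 hH.Kpp1 hKppl hH.hN
    hN2
  have hK22 : 2 ≤ (K ^ r35) ^ r67 := hK2'.trans (le_self_pow₀ hK1' (by omega))
  have hk3d : ((K ^ r35) ^ r67) ^ cJ * k3 ≤ 1 := by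
    rw [← pow_mul]
    exact hk3c _ (le_max_right _ _)
  have hK2Kp : ((K ^ r35) ^ r67) ^ cJ ≤ Kp := by
    rw [← pow_mul, ← pow_mul]
    exact (pow_le_pow_right₀ hK1 e6).trans hKKp
  obtain ⟨Y, J, hPJ⟩ := HJ ((K ^ r35) ^ r67) k3 k4 Kp ks Kpp L lam N del P' k Q W' W2 a b be T T'
    hK22 hk3d hk4' hk3p hK2Kp hks0 (hmono cJ e4).ks1 hH.Kpp1 (hmono cJ e4).hL (hmono cJ e4).hlam
    hH.hN ((Nat.cast_le.2 e4).trans hcl) hN3
  exact HU _ _ _ _ _ _ _ _ _ _ _ hPJ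

end Vale.Agent.P065.UB.H602
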