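import Vale.Agent.P065.UB.H602.AsmP
import Vale.Agent.P065.UB.H966.S35Fin
import Vale.Agent.P065.H277.S67

/-!
# P065, upper bound, line P: the three open inputs `StP0`, `StPJ`, `StU2` (helper602)
-/

set_option autoImplicit false

namespace Vale.Agent.P065.UB.H602

/-- line P from the three inputs which are still open -/
theorem stPoly_of3 (h0 : P.StP0) (hJ : H759.StPJ) (hU : H759.StU2) : P.StPoly :=
  stPoly_of h0 H966.stS35 Vale.Agent.P065.H277.stS67 hJ hU

end Vale.Agent.P065.UB.H602
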