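import Vale.Agent.P065.U.H792.Trans
import Vale.Agent.P065.UB.P.Defs
import Vale.Agent.P065.UB.H139.Aff

/-!
# P065, upper bound, line P: from `StPoly` to halving lines and `k`-sets of integer point sets
(helper602)
-/

set_option autoImplicit false

namespace Vale.Agent.P065.UB.H602

open Finset P H139 Vale.Agent.P065.U.H792.Trans

/-- integer coordinates of absolute value at most `M` -/
def IntM (P : Finset Pt) (M : ℤ) : Prop :=
  ∀ p ∈ P, ∃ x y : ℤ, p = ((x : ℝ), (y : ℝ)) ∧ |x| ≤ M ∧ |y| ≤ M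

theorem shear_inj {P : Finset Pt} {M : ℤ} (h : IntM P M) :
    ∀ p ∈ P, ∀ q ∈ P, p ≠ q →
      (sh (1 / ((2 * M + 1 : ℤ) : ℝ)) p).1 ≠ (sh (1 / ((2 * M + 1 : ℤ) : ℝ)) q).1 := by
  intro p hp q hq hne heq
  obtain ⟨x, y, rfl, hx, hy⟩ := h p hp
  obtain ⟨x', y', rfl, hx', hy'⟩ := h q hq
  have hM : 0 ≤ M := (abs_nonneg x).trans hx
  have hR : (0 : ℝ) < ((2 * M + 1 : ℤ) : ℝ) := by
    have : (0 : ℤ) < 2 * M + 1 := by omega
    exact_mod_cast this
  unfold sh at heq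
  simp only at heq
  have h1 : ((2 * M + 1 : ℤ) : ℝ) * x + y = ((2 * M + 1 : ℤ) : ℝ) * x' + y' := by
    field_simp at heq
    linarith
  have h2 : (2 * M + 1) * x + y = (2 * M + 1) * x' + y' := by exact_mod_cast h1
  have h3 := abs_le.1 hy
  have h4 := abs_le.1 hy'
  have h5 : x = x' := by
    rcases lt_trichotomy x x' with h | h | h
    · exfalso
      have : (2 * M + 1) * 1 ≤ (2 * M + 1) * (x' - x) :=
        mul_le_mul_of_nonneg_left (by omega) (by omega)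
      nlinarith
    · exact h
    · exfalso
      have : (2 * M + 1) * 1 ≤ (2 * M + 1) * (x - x') :=
        mul_le_mul_of_nonneg_left (by omega) (by omega)
      nlinarith
  subst h5
  have h6 : y = y' := by omega
  subst h6
  exact hne rfl

theorem abs_bound {M x y : ℤ} (hx : |x| ≤ M) (hy : |y| ≤ M) :
    |(2 * M + 1) * x + y| ≤ 2 * M ^ 2 + 2 * M ∧ |y| ≤ 2 * M ^ 2 + 2 * M ∧
      |-y| ≤ 2 * M ^ 2 + 2 * M := by
  have hM : 0 ≤ M := (abs_nonneg x).trans hx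
  have h1 := abs_le.1 hx
  have h2 := abs_le.1 hy
  refine ⟨abs_le.2 ⟨by nlinarith, by nlinarith⟩, hy.trans (by nlinarith), ?_⟩
  rw [abs_neg]
  exact hy.trans (by nlinarith)

open Classical in
theorem int_shear {P : Finset Pt} {M : ℤ} (h : IntM P M) :
    IntM ((P.image (sh (1 / ((2 * M + 1 : ℤ) : ℝ)))).image (af ((2 * M + 1 : ℤ) : ℝ) 0 1 0 0))
      (2 * M ^ 2 + 2 * M) ∧
    IntM (((P.image (sh (1 / ((2 * M + 1 : ℤ) : ℝ)))).image mir).image
      (af ((2 * M + 1 : ℤ) : ℝ) 0 1 0 0)) (2 * M ^ 2 + 2 * M) := by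
  constructor
  · intro p hp
    obtain ⟨p1, hp1, rfl⟩ := mem_image.1 hp
    obtain ⟨p0, hp0, rfl⟩ := mem_image.1 hp1
    obtain ⟨x, y, rfl, hx, hy⟩ := h p0 hp0
    have hM : 0 ≤ M := (abs_nonneg x).trans hx
    have hR : (0 : ℝ) < ((2 * M + 1 : ℤ) : ℝ) := by
      have : (0 : ℤ) < 2 * M + 1 := by omega
      exact_mod_cast this
    refine ⟨(2 * M + 1) * x + y, y, ?_, (abs_bound hx hy).1, (abs_bound hx hy).2.1⟩
    unfold af sh
    simp only
    refine Prod.ext ?_ ?_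
    · simp only
      push_cast at hR ⊢
      field_simp
      ring
    · simp
  · intro p hp
    obtain ⟨p2, hp2, rfl⟩ := mem_image.1 hp
    obtain ⟨p1, hp1, rfl⟩ := mem_image.1 hp2
    obtain ⟨p0, hp0, rfl⟩ := mem_image.1 hp1
    obtain ⟨x, y, rfl, hx, hy⟩ := h p0 hp0
    have hM : 0 ≤ M := (abs_nonneg x).trans hx
    have hR : (0 : ℝ) < ((2 * M + 1 : ℤ) : ℝ) := by
      have : (0 : ℤ) < 2 * M + 1 := by omega
      exact_mod_cast this
    refine ⟨(2 * M + 1) * x + y, -y, ?_, (abs_bound hx hy).1, (abs_bound hx hy).2.2⟩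
    unfold af mir sh
    simp only
    refine Prod.ext ?_ ?_
    · simp only
      push_cast at hR ⊢
      field_simp
      ring
    · simp

open Classical in
/-- the bound for a good set whose image under `(x, y) ↦ (R x, y)` is an integer set -/
theorem ed_lt (h : StPoly) (A : ℕ) : ∃ ε : ℝ, 0 < ε ∧ ∃ n₀ : ℕ, ∀ (P : Finset Pt) (k : ℕ) (R : ℝ)
    (M : ℤ), Good P → 0 < R → IntM (P.image (af R 0 1 0 0)) M → M ≤ (#P : ℤ) ^ A → n₀ ≤ #P →
    (#(Ed P k) : ℝ) < (#P : ℝ) ^ (4 / 3 - ε) := by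
  obtain ⟨ε, hε, n₀, H⟩ := h A
  refine ⟨ε, hε, n₀, fun P k R M hP hR hI hM hn => ?_⟩
  have hc : #(P.image (af R 0 1 0 0)) = #P :=
    card_image_of_injective _ (af_inj hR one_pos)
  have h1 := H (P.image (af R 0 1 0 0)) k (good_af hR one_pos hP) (fun p hp => by
    obtain ⟨x, y, h2, h3, h4⟩ := hI p hp
    rw [hc]
    exact ⟨x, y, h2, h3.trans hM, h4.trans hM⟩) (by rw [hc]; exact hn)
  rw [hc, Ed_af hR one_pos, card_image_of_injective _ (pm_inj hR one_pos)] at h1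
  exact h1

open Classical in
/-- large integer sets -/
theorem poly_large (h : StPoly) (A : ℕ) : ∃ ε : ℝ, 0 < ε ∧ ∃ n₀ : ℕ,
    ∀ P : Finset (ℝ × ℝ), GenPos P → IntM P ((#P : ℤ) ^ A) → n₀ ≤ #P →
      (halvingNumber P : ℝ) ≤ (#P : ℝ) ^ (4 / 3 - ε) ∧
      ∀ k : ℕ, k + 2 ≤ #P → (kSetNumber P (k + 1) : ℝ) ≤ 2 * (#P : ℝ) ^ (4 / 3 - ε) + 2 := by
  obtain ⟨ε, hε, n₀, H⟩ := ed_lt h (2 * A + 2)
  refine ⟨ε, hε, max n₀ 2, fun P hg hI hn => ?_⟩
  have hn1 : n₀ ≤ #P := (le_max_left _ _).trans hn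
  have hn2 : 2 ≤ #P := (le_max_right _ _).trans hn
  set M : ℤ := (#P : ℤ) ^ A with hMdef
  have hn2' : (2 : ℤ) ≤ #P := by exact_mod_cast hn2
  have hM1 : 1 ≤ M := one_le_pow₀ (by omega)
  have hR : (0 : ℝ) < ((2 * M + 1 : ℤ) : ℝ) := by
    have : (0 : ℤ) < 2 * M + 1 := by omega
    exact_mod_cast this
  have hMb : 2 * M ^ 2 + 2 * M ≤ (#P : ℤ) ^ (2 * A + 2) := by
    have h1 : (#P : ℤ) ^ (2 * A + 2) = M ^ 2 * (#P : ℤ) ^ 2 := by
      rw [hMdef, ← pow_mul, mul_comm A 2, ← pow_add]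
    have h2 : (4 : ℤ) ≤ (#P : ℤ) ^ 2 := by nlinarith
    rw [h1]
    nlinarith [sq_nonneg M, mul_le_mul_of_nonneg_left h2 (sq_nonneg M)]
  have hinj := shear_inj hI
  set r : ℝ := 1 / ((2 * M + 1 : ℤ) : ℝ) with hr
  have hgood := good_shear hg hinj
  obtain ⟨i1, i2⟩ := int_shear hI
  rw [← hr] at i1 i2
  have hc1 : #(P.image (sh r)) = #P := card_image_sh r P
  have hc2 : #((P.image (sh r)).image mir) = #P := by
    rw [card_image_of_injective _ mir_inj, hc1]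
  have b1 : ∀ k, (#(Ed (P.image (sh r)) k) : ℝ) < (#P : ℝ) ^ (4 / 3 - ε) := by
    intro k
    have := H (P.image (sh r)) k _ _ hgood hR i1 (by rw [hc1]; exact hMb) (by rw [hc1]; exact hn1)
    rwa [hc1] at this
  have b2 : ∀ k, (#(Ed ((P.image (sh r)).image mir) k) : ℝ) < (#P : ℝ) ^ (4 / 3 - ε) := by
    intro k
    have := H ((P.image (sh r)).image mir) k _ _ (good_mir hgood) hR i2
      (by rw [hc2]; exact hMb) (by rw [hc2]; exact hn1)
    rwa [hc2] at this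
  constructor
  · have h2 := halvingNumber_shear (P := P) r
    have h3 := halvingNumber_le hgood
    have h4 : (halvingNumber P : ℝ) ≤ #(Ed (P.image (sh r)) ((#(P.image (sh r)) - 2) / 2)) := by
      exact_mod_cast h2.trans h3
    exact h4.trans (b1 _).le
  · intro k hk
    have h2 := kSetNumber_shear (P := P) r (k + 1)
    have h3 := kSetNumber_le hgood (k := k) (by omega)
    have h4 := card_Ed_mir hgood (k := k) (by omega)
    have h7 : kSetNumber P (k + 1) ≤ #(Ed (P.image (sh r)) k)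
        + #(Ed ((P.image (sh r)).image mir) k) + 2 := by omega
    have h8 : (kSetNumber P (k + 1) : ℝ) ≤ #(Ed (P.image (sh r)) k)
        + #(Ed ((P.image (sh r)).image mir) k) + 2 := by exact_mod_cast h7
    have := b1 k
    have := b2 k
    linarith

theorem halvingNumber_le_sq (P : Finset (ℝ × ℝ)) : halvingNumber P ≤ #P ^ 2 := by
  classical
  unfold halvingNumber
  refine (card_filter_le _ _).trans ?_
  rw [card_powersetCard]
  exact Nat.choose_le_pow _ _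

theorem kSetNumber_le_two (P : Finset (ℝ × ℝ)) (k : ℕ) : kSetNumber P k ≤ 2 ^ #P := by
  classical
  unfold kSetNumber
  refine (card_filter_le _ _).trans ?_
  rw [card_powerset]

/-- **line P, official form**: halving lines and `k`-sets of sets in general position with integer
coordinates of absolute value at most `n ^ A` -/
theorem poly_final (h : StPoly) (A : ℕ) : ∃ c C : ℝ, 0 < c ∧ ∀ P : Finset (ℝ × ℝ), GenPos P →
    (∀ p ∈ P, ∃ x y : ℤ, p = ((x : ℝ), (y : ℝ)) ∧ |x| ≤ (#P : ℤ) ^ A ∧ |y| ≤ (#P : ℤ) ^ A) →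
      (halvingNumber P : ℝ) ≤ C * (#P : ℝ) ^ (4 / 3 - c) ∧
      ∀ k : ℕ, 1 ≤ k → k + 1 ≤ #P → (kSetNumber P k : ℝ) ≤ C * (#P : ℝ) ^ (4 / 3 - c) := by
  obtain ⟨ε, hε, n₀, H⟩ := poly_large h A
  have hc : 0 < min ε 1 := lt_min hε one_pos
  refine ⟨min ε 1, max 4 (max ((n₀ : ℝ) ^ 2) (2 ^ n₀)), hc, fun P hg hI => ?_⟩
  have hC4 : (4 : ℝ) ≤ max 4 (max ((n₀ : ℝ) ^ 2) (2 ^ n₀)) := le_max_left _ _
  rcases Nat.eq_zero_or_pos #P with h0 | hpos
  · have e1 : halvingNumber P = 0 := by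
      have := halvingNumber_le_sq P
      rw [h0] at this
      omega
    rw [e1]
    refine ⟨?_, fun k hk hk' => by omega⟩
    push_cast
    positivity
  have hn1 : (1 : ℝ) ≤ #P := by exact_mod_cast hpos
  have hx1 : (1 : ℝ) ≤ (#P : ℝ) ^ (4 / 3 - min ε 1) :=
    Real.one_le_rpow hn1 (by linarith [min_le_right ε 1])
  rcases le_or_gt n₀ #P with hn | hn
  · have hmono : (#P : ℝ) ^ (4 / 3 - ε) ≤ (#P : ℝ) ^ (4 / 3 - min ε 1) :=
      Real.rpow_le_rpow_of_exponent_le hn1 (by linarith [min_le_left ε 1])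
    obtain ⟨h1, h2⟩ := H P hg hI hn
    constructor
    · calc (halvingNumber P : ℝ) ≤ (#P : ℝ) ^ (4 / 3 - min ε 1) := h1.trans hmono
        _ ≤ _ := le_mul_of_one_le_left (by positivity) (by linarith)
    · intro k hk hk'
      obtain ⟨j, rfl⟩ : ∃ j, k = j + 1 := ⟨k - 1, by omega⟩
      have h3 := h2 j (by omega)
      calc (kSetNumber P (j + 1) : ℝ) ≤ 2 * (#P : ℝ) ^ (4 / 3 - ε) + 2 := h3
        _ ≤ 4 * (#P : ℝ) ^ (4 / 3 - min ε 1) := by linarith
        _ ≤ _ := mul_le_mul_of_nonneg_right hC4 (by positivity)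
  · have hnR : (#P : ℝ) ≤ n₀ := by exact_mod_cast hn.le
    constructor
    · calc (halvingNumber P : ℝ) ≤ (#P : ℝ) ^ 2 := by exact_mod_cast halvingNumber_le_sq P
        _ ≤ (n₀ : ℝ) ^ 2 := by gcongr
        _ ≤ max 4 (max ((n₀ : ℝ) ^ 2) (2 ^ n₀)) := (le_max_left _ _).trans (le_max_right _ _)
        _ ≤ _ := le_mul_of_one_le_right (by positivity) hx1
    · intro k hk hk'
      calc (kSetNumber P k : ℝ) ≤ 2 ^ #P := by exact_mod_cast kSetNumber_le_two P k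
        _ ≤ 2 ^ n₀ := pow_le_pow_right₀ (by norm_num) hn.le
        _ ≤ max 4 (max ((n₀ : ℝ) ^ 2) (2 ^ n₀)) := (le_max_right _ _).trans (le_max_right _ _)
        _ ≤ _ := le_mul_of_one_le_right (by positivity) hx1

end Vale.Agent.P065.UB.H602
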