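import Vale.Agent.P065.UB.H602.AsmP2
import Vale.Agent.P065.UB.H602.TransP
import Vale.Agent.P065.UB.H666.PJ

/-!
# P065, upper bound, line P: the two open inputs `StP0`, `StU2` (helper602)
-/

set_option autoImplicit false

namespace Vale.Agent.P065.UB.H602

open Finset

/-- line P from the two inputs which are still open -/
theorem stPoly_of2 (h0 : P.StP0) (hU : H759.StU2) : P.StPoly :=
  stPoly_of3 h0 H666.stPJ hU

/-- line P, official form, from the two inputs which are still open -/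
theorem poly_final2 (h0 : P.StP0) (hU : H759.StU2) (A : ℕ) : ∃ c C : ℝ, 0 < c ∧
    ∀ P : Finset (ℝ × ℝ), GenPos P →
    (∀ p ∈ P, ∃ x y : ℤ, p = ((x : ℝ), (y : ℝ)) ∧ |x| ≤ (#P : ℤ) ^ A ∧ |y| ≤ (#P : ℤ) ^ A) →
      (halvingNumber P : ℝ) ≤ C * (#P : ℝ) ^ (4 / 3 - c) ∧
      ∀ k : ℕ, 1 ≤ k → k + 1 ≤ #P → (kSetNumber P k : ℝ) ≤ C * (#P : ℝ) ^ (4 / 3 - c) :=
  poly_final (stPoly_of2 h0 hU) A

end Vale.Agent.P065.UB.H602
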