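import Vale.Agent.P065.UB.H602.AsmP3
import Vale.Agent.P065.UB.H855.StP0

/-!
# P065, upper bound, line P: the only open input is `StU2` (helper602)
-/

set_option autoImplicit false

namespace Vale.Agent.P065.UB.H602

open Finset

/-- line P, official form, from the only input which is still open -/
theorem poly_final1 (hU : H759.StU2) (A : ℕ) : ∃ c C : ℝ, 0 < c ∧
    ∀ P : Finset (ℝ × ℝ), GenPos P →
    (∀ p ∈ P, ∃ x y : ℤ, p = ((x : ℝ), (y : ℝ)) ∧ |x| ≤ (#P : ℤ) ^ A ∧ |y| ≤ (#P : ℤ) ^ A) →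
      (halvingNumber P : ℝ) ≤ C * (#P : ℝ) ^ (4 / 3 - c) ∧
      ∀ k : ℕ, 1 ≤ k → k + 1 ≤ #P → (kSetNumber P k : ℝ) ≤ C * (#P : ℝ) ^ (4 / 3 - c) :=
  poly_final2 H855.stP0 hU A

end Vale.Agent.P065.UB.H602
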