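import Vale.Agent.P065.UB.Win

/-!
# P065, upper bound, line P, block NORM: closed windows, slopes of integer points, popular length
(helper602)
-/

set_option autoImplicit false

namespace Vale.Agent.P065.UB.H602

open Finset Vale.Agent.P065.UB

theorem mem_EdIn {P : Finset Pt} {k : ℕ} {Q : Finset Pt} {I : Set ℝ} {e : Pt × Pt} :
    e ∈ EdIn P k Q I ↔ e ∈ Ed P k ∧ e.1 ∈ Q ∧ e.2 ∈ Q ∧ sl e.1 e.2 ∈ I := by
  classical
  unfold EdIn
  rw [mem_filter]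

theorem mem_EdBd {P : Finset Pt} {k : ℕ} {Q : Finset Pt} {I : Set ℝ} {e : Pt × Pt} :
    e ∈ EdBd P k Q I ↔ e ∈ Ed P k ∧ ((e.1 ∈ Q ∧ e.2 ∉ Q) ∨ (e.1 ∉ Q ∧ e.2 ∈ Q)) ∧
      sl e.1 e.2 ∈ I := by
  classical
  unfold EdBd
  rw [mem_filter]

/-- the closed interval spanned by the slopes of the edges of a window -/
theorem hull (P : Finset Pt) (k : ℕ) (Q : Finset Pt) (I : Set ℝ) (hI : I.OrdConnected)
    (hne : (EdIn P k Q I).Nonempty) :
    ∃ a b : ℝ, (∃ e ∈ EdIn P k Q I, sl e.1 e.2 = a) ∧ (∃ e ∈ EdIn P k Q I, sl e.1 e.2 = b) ∧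
      a ≤ b ∧ Set.Icc a b ⊆ I ∧ EdIn P k Q (Set.Icc a b) = EdIn P k Q I ∧
      Tch P k Q (Set.Icc a b) = Tch P k Q I ∧ EdBd P k Q (Set.Icc a b) ⊆ EdBd P k Q I := by
  classical
  obtain ⟨e₁, he₁, h₁⟩ := exists_min_image (EdIn P k Q I) (fun e => sl e.1 e.2) hne
  obtain ⟨e₂, he₂, h₂⟩ := exists_max_image (EdIn P k Q I) (fun e => sl e.1 e.2) hne
  have hsub : Set.Icc (sl e₁.1 e₁.2) (sl e₂.1 e₂.2) ⊆ I :=
    hI.out (mem_EdIn.1 he₁).2.2.2 (mem_EdIn.1 he₂).2.2.2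
  have hEd : EdIn P k Q (Set.Icc (sl e₁.1 e₁.2) (sl e₂.1 e₂.2)) = EdIn P k Q I := by
    ext e
    rw [mem_EdIn, mem_EdIn]
    constructor
    · rintro ⟨a1, a2, a3, a4⟩
      exact ⟨a1, a2, a3, hsub a4⟩
    · rintro ⟨a1, a2, a3, a4⟩
      have he : e ∈ EdIn P k Q I := mem_EdIn.2 ⟨a1, a2, a3, a4⟩
      exact ⟨a1, a2, a3, h₁ e he, h₂ e he⟩
  refine ⟨sl e₁.1 e₁.2, sl e₂.1 e₂.2, ⟨e₁, he₁, rfl⟩, ⟨e₂, he₂, rfl⟩, h₁ e₂ he₂, hsub, hEd, ?_,
    ?_⟩
  · unfold Tch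
    rw [hEd]
  · intro e he
    rw [mem_EdBd] at he ⊢
    exact ⟨he.1, he.2.1, hsub he.2.2⟩

/-- two different edges have different slopes, so the closed window has positive length -/
theorem hull_lt {P : Finset Pt} (hP : Good P) {k : ℕ} {Q : Finset Pt} {I : Set ℝ} {a b : ℝ}
    (h2 : 2 ≤ #(EdIn P k Q I)) (hE : ∀ e ∈ EdIn P k Q I, a ≤ sl e.1 e.2 ∧ sl e.1 e.2 ≤ b) :
    a < b := by
  classical
  obtain ⟨e, he, e', he', hne⟩ := one_lt_card.1 (show 1 < #(EdIn P k Q I) by omega)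
  rcases lt_trichotomy (sl e.1 e.2) (sl e'.1 e'.2) with h | h | h
  · exact lt_of_le_of_lt (hE e he).1 (lt_of_lt_of_le h (hE e' he').2)
  · exact absurd (Win266.eq_of_sl hP (mem_EdIn.1 he).1 (mem_EdIn.1 he').1 h) hne
  · exact lt_of_le_of_lt (hE e' he').1 (lt_of_lt_of_le h (hE e he).2)

/-- points with integer coordinates of absolute value at most `M` -/
def IntPts (P : Finset Pt) (M : ℝ) : Prop :=
  ∀ p ∈ P, ∃ x y : ℤ, p = ((x : ℝ), (y : ℝ)) ∧ |(x : ℝ)| ≤ M ∧ |(y : ℝ)| ≤ M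

theorem IntPts.fst {P : Finset Pt} {M : ℝ} (h : IntPts P M) {p q : Pt} (hp : p ∈ P)
    (hq : q ∈ P) (hpq : p.1 < q.1) : 1 ≤ q.1 - p.1 ∧ q.1 - p.1 ≤ 2 * M := by
  obtain ⟨x, y, rfl, hx, hy⟩ := h p hp
  obtain ⟨x', y', rfl, hx', hy'⟩ := h q hq
  simp only at hpq ⊢
  have h1 : x < x' := by exact_mod_cast hpq
  have h2 : (1 : ℝ) ≤ (x' : ℝ) - x := by
    have : x + 1 ≤ x' := h1
    have : ((x : ℝ) + 1) ≤ x' := by exact_mod_cast this
    linarith
  have h3 := abs_le.1 hx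
  have h4 := abs_le.1 hx'
  exact ⟨h2, by linarith [h3.1, h4.2]⟩

theorem IntPts.sl_abs {P : Finset Pt} {M : ℝ} (h : IntPts P M) {p q : Pt} (hp : p ∈ P)
    (hq : q ∈ P) (hpq : p.1 < q.1) : |sl p q| ≤ 2 * M := by
  have h1 := (h.fst hp hq hpq).1
  obtain ⟨x, y, rfl, hx, hy⟩ := h p hp
  obtain ⟨x', y', rfl, hx', hy'⟩ := h q hq
  simp only at h1
  unfold sl
  simp only
  have h3 := abs_le.1 hy
  have h4 := abs_le.1 hy'
  rw [abs_div, abs_of_pos (by linarith : (0 : ℝ) < (x' : ℝ) - x), div_le_iff₀ (by linarith)]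
  have h5 : |(y' : ℝ) - y| ≤ 2 * M := abs_le.2 ⟨by linarith [h3.2, h4.1], by linarith [h3.1, h4.2]⟩
  have hM : 0 ≤ M := (abs_nonneg _).trans hx
  nlinarith

/-- different slopes of integer points differ by at least `1 / (2 M) ^ 2` -/
theorem IntPts.sl_sub {P : Finset Pt} {M : ℝ} (h : IntPts P M) {p q p' q' : Pt} (hp : p ∈ P)
    (hq : q ∈ P) (hp' : p' ∈ P) (hq' : q' ∈ P) (hpq : p.1 < q.1) (hpq' : p'.1 < q'.1)
    (hlt : sl p q < sl p' q') : 1 ≤ (sl p' q' - sl p q) * (2 * M) ^ 2 := by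
  have h1 := h.fst hp hq hpq
  have h1' := h.fst hp' hq' hpq'
  obtain ⟨x, y, rfl, hx, hy⟩ := h p hp
  obtain ⟨x', y', rfl, hx', hy'⟩ := h q hq
  obtain ⟨u, v, rfl, hu, hv⟩ := h p' hp'
  obtain ⟨u', v', rfl, hu', hv'⟩ := h q' hq'
  simp only at h1 h1'
  unfold sl at hlt ⊢
  simp only at hlt ⊢
  have hd : (0 : ℝ) < (x' : ℝ) - x := by linarith
  have hd' : (0 : ℝ) < (u' : ℝ) - u := by linarith
  have e1 : ((v' : ℝ) - v) / (u' - u) - (y' - y) / (x' - x)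
      = (((v' : ℝ) - v) * (x' - x) - (y' - y) * (u' - u)) / ((u' - u) * (x' - x)) := by
    field_simp
  have hnum : (1 : ℝ) ≤ ((v' : ℝ) - v) * (x' - x) - (y' - y) * (u' - u) := by
    have h2 : (0 : ℝ) < ((v' : ℝ) - v) * (x' - x) - (y' - y) * (u' - u) := by
      have h3 : 0 < ((v' : ℝ) - v) / (u' - u) - (y' - y) / (x' - x) := by linarith
      rw [e1] at h3
      exact (div_pos_iff_of_pos_right (mul_pos hd' hd)).1 h3
    have h4 : (0 : ℤ) < (v' - v) * (x' - x) - (y' - y) * (u' - u) := by exact_mod_cast h2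
    have h5 : (1 : ℤ) ≤ (v' - v) * (x' - x) - (y' - y) * (u' - u) := h4
    exact_mod_cast h5
  rw [e1, div_mul_eq_mul_div, one_le_div (mul_pos hd' hd)]
  have h6 : ((u' : ℝ) - u) * (x' - x) ≤ (2 * M) ^ 2 := by
    rw [sq]
    exact mul_le_mul h1'.2 h1.2 hd.le (hd'.le.trans h1'.2)
  have h7 : (0 : ℝ) ≤ (2 * M) ^ 2 := sq_nonneg _
  nlinarith

/-- popular dyadic class -/
theorem popular {ι : Type*} (W : Finset ι) (f : ι → ℝ) {m : ℝ} (hm : 0 < m) (J : ℕ)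
    (h1 : ∀ w ∈ W, m ≤ f w) (h2 : ∀ w ∈ W, f w < m * 2 ^ J) :
    ∃ d : ℝ, m ≤ d ∧ ∃ W' ⊆ W, (∀ w ∈ W', d ≤ f w ∧ f w ≤ 2 * d) ∧ #W ≤ J * #W' := by
  classical
  rcases W.eq_empty_or_nonempty with hW | hW
  · exact ⟨m, le_rfl, ∅, empty_subset _, by simp, by simp [hW]⟩
  set g : ι → ℕ := fun w => ⌊Real.logb 2 (f w / m)⌋₊ with hg
  have hgJ : ∀ w ∈ W, g w ∈ range J := by
    intro w hw
    rw [mem_range, hg]
    have h3 : 1 ≤ f w / m := (one_le_div hm).2 (h1 w hw)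
    have h4 : f w / m < 2 ^ J := by
      rw [div_lt_iff₀ hm]
      have := h2 w hw
      linarith
    rw [Nat.floor_lt (Real.logb_nonneg (by norm_num) h3)]
    calc Real.logb 2 (f w / m) < Real.logb 2 ((2 : ℝ) ^ J) :=
          Real.logb_lt_logb (by norm_num) (by linarith) h4
      _ = J := by rw [← Real.rpow_natCast, Real.logb_rpow (by norm_num) (by norm_num)]
  have hsum : ∑ j ∈ range J, #{w ∈ W | g w = j} = #W :=
    (card_eq_sum_card_fiberwise (fun w hw => by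
      simpa using hgJ w hw)).symm
  obtain ⟨j, hj, hjm⟩ : ∃ j ∈ range J, #W ≤ J * #{w ∈ W | g w = j} := by
    by_contra hcon
    push Not at hcon
    have h5 : J * #W < #W * J := by
      have hJ : (range J).Nonempty := by
        obtain ⟨w, hw⟩ := hW
        exact ⟨_, hgJ w hw⟩
      calc J * #W = ∑ j ∈ range J, J * #{w ∈ W | g w = j} := by rw [← mul_sum, hsum]
        _ < ∑ j ∈ range J, #W := sum_lt_sum_of_nonempty hJ hcon
        _ = #W * J := by rw [sum_const, card_range, smul_eq_mul, mul_comm]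
    exact absurd h5 (by rw [mul_comm]; exact lt_irrefl _)
  refine ⟨m * 2 ^ j, ?_, {w ∈ W | g w = j}, filter_subset _ _, ?_, hjm⟩
  · have : (1 : ℝ) ≤ 2 ^ j := one_le_pow₀ (by norm_num)
    nlinarith
  · intro w hw
    rw [mem_filter] at hw
    have h3 : 1 ≤ f w / m := (one_le_div hm).2 (h1 w hw.1)
    have h4 := Nat.floor_le (Real.logb_nonneg (b := 2) (by norm_num) h3)
    have h5 := Nat.lt_floor_add_one (Real.logb 2 (f w / m))
    have h6 : (⌊Real.logb 2 (f w / m)⌋₊ : ℝ) = j := by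
      have h6' : ⌊Real.logb 2 (f w / m)⌋₊ = j := hw.2
      exact_mod_cast h6'
    rw [h6] at h4 h5
    have h7 : (2 : ℝ) ^ Real.logb 2 (f w / m) = f w / m :=
      Real.rpow_logb (by norm_num) (by norm_num) (by linarith)
    have h8 : (2 : ℝ) ^ (j : ℝ) ≤ f w / m := by
      rw [← h7]
      exact Real.rpow_le_rpow_of_exponent_le (by norm_num) h4
    have h9 : f w / m ≤ (2 : ℝ) ^ ((j : ℝ) + 1) := by
      rw [← h7]
      exact Real.rpow_le_rpow_of_exponent_le (by norm_num) h5.le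
    rw [Real.rpow_natCast] at h8
    rw [Real.rpow_add (by norm_num), Real.rpow_natCast, Real.rpow_one] at h9
    rw [le_div_iff₀ hm] at h8
    rw [div_le_iff₀ hm] at h9
    constructor <;> linarith

/-- **the first drop**: `f` at the scales `l 0, l 1, ..` and thresholds `t 0, t 1, ..` -/
theorem first_drop {M : ℕ} {f t : ℕ → ℝ} (h0 : t 0 ≤ f 0) (hM : f M < t M) :
    ∃ i < M, t i ≤ f i ∧ f (i + 1) < t (i + 1) := by
  classical
  by_contra hcon
  push Not at hcon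
  have h : ∀ i ≤ M, t i ≤ f i := by
    intro i
    induction i with
    | zero => exact fun _ => h0
    | succ i ih => exact fun hi => hcon i (by omega) (ih (by omega))
  exact absurd (h M le_rfl) (not_le.2 hM)

end Vale.Agent.P065.UB.H602
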