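import Vale.Agent.P065.UB.P.Defs

/-!
# P065, upper bound, line P, StP0: the tower of parameters (helper602)

Everything is a power of `n`.  `al j` = exponents of the time levels, `ga j i` = exponents of the
space levels inside the time level `j`.
-/

set_option autoImplicit false

namespace Vale.Agent.P065.UB.H602

open Finset P

/-- exponent of `Kpp / n ^ be` -/
noncomputable def be (c : ℕ) : ℝ := 1 / (32 * ((c : ℝ) + 1) ^ 2)

/-- one step down -/
noncomputable def down (A c : ℕ) (x : ℝ) : ℝ :=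
  x / (4 * ((c : ℝ) + 1) * (3 * (c : ℝ) + 10) ^ ⌈((A : ℝ) + 2) * ((c : ℝ) + 1) / x⌉₊)

/-- the exponents from the top -/
noncomputable def gg (A c : ℕ) : ℕ → ℝ
  | 0 => be c
  | m + 1 => down A c (gg A c m)

theorem be_pos (c : ℕ) : 0 < be c := by unfold be; positivity

theorem down_pos (A c : ℕ) {x : ℝ} (hx : 0 < x) : 0 < down A c x := by
  unfold down
  positivity

theorem down_lt (A c : ℕ) {x : ℝ} (hx : 0 < x) : down A c x < x := by
  unfold down
  have hc : (0 : ℝ) ≤ c := Nat.cast_nonneg c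
  have h1 : (1 : ℝ) ≤ (3 * (c : ℝ) + 10) ^ ⌈((A : ℝ) + 2) * ((c : ℝ) + 1) / x⌉₊ :=
    one_le_pow₀ (by linarith)
  rw [div_lt_iff₀ (by positivity)]
  have h2 : 1 < 4 * ((c : ℝ) + 1) * (3 * (c : ℝ) + 10) ^ ⌈((A : ℝ) + 2) * ((c : ℝ) + 1) / x⌉₊ := by
    nlinarith
  nlinarith

theorem gg_pos (A c m : ℕ) : 0 < gg A c m := by
  induction m with
  | zero => exact be_pos c
  | succ m ih => exact down_pos A c ih

theorem gg_anti (A c : ℕ) : Antitone (gg A c) :=
  antitone_nat_of_succ_le fun m => (down_lt A c (gg_pos A c m)).le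

/-- large numbers -/
theorem large {x : ℝ} (hx : 0 < x) (y : ℝ) : ∃ n₀ : ℕ, ∀ n : ℝ, n₀ ≤ n → y ≤ n ^ x := by
  refine ⟨⌈(max y 1) ^ (1 / x)⌉₊, fun n hn => ?_⟩
  have h0 : (0 : ℝ) < max y 1 := lt_of_lt_of_le one_pos (le_max_right _ _)
  have h1 : (max y 1) ^ (1 / x) ≤ n := (Nat.le_ceil _).trans hn
  calc y ≤ max y 1 := le_max_left _ _
    _ = ((max y 1) ^ (1 / x)) ^ x := by
        rw [← Real.rpow_mul h0.le, one_div, inv_mul_cancel₀ hx.ne', Real.rpow_one]
    _ ≤ n ^ x := Real.rpow_le_rpow (by positivity) h1 hx.le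

theorem large_log {x : ℝ} (hx : 0 < x) : ∃ n₀ : ℕ, ∀ n : ℝ, n₀ ≤ n → Real.log n ≤ n ^ x := by
  obtain ⟨n₀, h⟩ := large (show 0 < x / 2 by positivity) (2 / x)
  refine ⟨max n₀ 1, fun n hn => ?_⟩
  have hn1 : ((n₀ : ℕ) : ℝ) ≤ n := le_trans (by exact_mod_cast le_max_left _ _) hn
  have hn2 : (1 : ℝ) ≤ n := le_trans (by exact_mod_cast le_max_right n₀ 1) hn
  have h1 := Real.log_le_rpow_div (by linarith : (0 : ℝ) ≤ n) (show 0 < x / 2 by positivity)
  have h2 : n ^ (x / 2) * n ^ (x / 2) = n ^ x := by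
    rw [← Real.rpow_add (by linarith)]
    congr 1
    ring
  calc Real.log n ≤ n ^ (x / 2) / (x / 2) := h1
    _ = (2 / x) * n ^ (x / 2) := by field_simp
    _ ≤ n ^ (x / 2) * n ^ (x / 2) := by
        refine mul_le_mul_of_nonneg_right (h n hn1) (by positivity)
    _ = n ^ x := h2

/-- **PAR** -/
theorem par (A c : ℕ) : ∃ (J : ℕ) (al : ℕ → ℝ) (Ju : ℕ → ℕ) (ga : ℕ → ℕ → ℝ) (n₀ : ℕ),
    (∀ j, 0 < al j) ∧ al J = be c ∧ (∀ j < J, al j < al (j + 1)) ∧
    (∀ j, ga j 0 = 4 * al j) ∧ (∀ j < J, ga j (Ju j) = al (j + 1) / (c + 1)) ∧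
    3 * (A : ℝ) + 2 ≤ be c * J ∧
    (∀ j < J, (A : ℝ) + 2 ≤ al (j + 1) / (c + 1) * Ju j) ∧
    (∀ j i, (3 * (c : ℝ) + 10) * ga j i ≤ ga j (i + 1)) ∧
    (∀ j i, 0 < ga j i) ∧ (∀ j i, ga j i ≤ ga j (i + 1)) ∧
    (∀ j, al 0 ≤ al j) ∧ (∀ j, al j ≤ be c) ∧
    (∀ j < J, ∀ i ≤ Ju j, ga j i ≤ al (j + 1) / (c + 1)) ∧
    ∀ n : ℝ, n₀ ≤ n → ∀ j < J, ∀ i < Ju j, ∀ N : ℝ,
      n ^ (3 / 4 : ℝ) ≤ n ^ (al 0 / 100) * N → N ≤ n →
      Hier c (n ^ (2 * ga j i)) (n ^ (-ga j (i + 1))) (n ^ (al (j + 1) / (c + 1)))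
        (n ^ (-al (j + 1))) (n ^ (2 * be c)) (n ^ (2 * be c * c)) (n ^ (1 / 8 : ℝ)) N ∧
      (c : ℝ) ≤ n ^ (1 / 8 : ℝ) ∧ Real.log N ≤ n ^ (2 * ga j i) := by
  have hb := be_pos c
  have hc0 : (0 : ℝ) ≤ c := Nat.cast_nonneg c
  set J : ℕ := ⌈(3 * (A : ℝ) + 2) / be c⌉₊ with hJ
  set al : ℕ → ℝ := fun j => gg A c (J - j) with hal
  set Ju : ℕ → ℕ := fun j => ⌈((A : ℝ) + 2) * ((c : ℝ) + 1) / al (j + 1)⌉₊ with hJu
  set ga : ℕ → ℕ → ℝ := fun j i => 4 * al j * (3 * (c : ℝ) + 10) ^ i with hga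
  have halpos : ∀ j, 0 < al j := fun j => gg_pos A c _
  have hstep : ∀ j < J, al j = down A c (al (j + 1)) := by
    intro j hj
    simp only [hal]
    have : J - j = (J - (j + 1)) + 1 := by omega
    rw [this]
    rfl
  have hle0 : ∀ j, al 0 ≤ al j := fun j => gg_anti A c (by omega)
  have hleb : ∀ j, al j ≤ be c := fun j => gg_anti A c (Nat.zero_le _)
  have hgapos : ∀ j i, 0 < ga j i := fun j i => by
    have := halpos j
    simp only [hga]
    positivity
  have hga1 : ∀ j i, (3 * (c : ℝ) + 10) * ga j i ≤ ga j (i + 1) := fun j i => by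
    simp only [hga]
    rw [pow_succ]
    apply le_of_eq
    ring
  have hgam : ∀ j i, ga j i ≤ ga j (i + 1) := fun j i => by
    have h1 := hga1 j i
    have h2 := hgapos j i
    nlinarith
  have hgaJ : ∀ j < J, ga j (Ju j) = al (j + 1) / (c + 1) := by
    intro j hj
    have h1 := halpos (j + 1)
    simp only [hga]
    rw [hstep j hj]
    unfold down
    have h2 : (0 : ℝ) < (3 * (c : ℝ) + 10) ^ ⌈((A : ℝ) + 2) * ((c : ℝ) + 1) / al (j + 1)⌉₊ := by
      positivity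
    have h3 : Ju j = ⌈((A : ℝ) + 2) * ((c : ℝ) + 1) / al (j + 1)⌉₊ := rfl
    rw [h3]
    field_simp
  have hgale : ∀ j < J, ∀ i ≤ Ju j, ga j i ≤ al (j + 1) / (c + 1) := by
    intro j hj i hi
    rw [← hgaJ j hj]
    exact monotone_nat_of_le_succ (hgam j) hi
  obtain ⟨n1, hn1⟩ := large (show 0 < 8 * al 0 by have := halpos 0; positivity) 2
  obtain ⟨n2, hn2⟩ := large_log (show 0 < 8 * al 0 by have := halpos 0; positivity)
  obtain ⟨n3, hn3⟩ := large (show (0 : ℝ) < 1 / 8 by norm_num) c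
  refine ⟨J, al, Ju, ga, max (max n1 n2) (max n3 1), halpos, ?_, ?_, ?_, hgaJ, ?_, ?_, hga1, hgapos,
    hgam, hle0, hleb, hgale, ?_⟩
  · simp [hal, gg]
  · intro j hj
    rw [hstep j hj]
    exact down_lt A c (halpos _)
  · intro j
    simp [hga]
  · have h1 := Nat.le_ceil ((3 * (A : ℝ) + 2) / be c)
    rw [div_le_iff₀ hb] at h1
    rw [mul_comm (be c)]
    exact h1
  · intro j hj
    have h1 := Nat.le_ceil (((A : ℝ) + 2) * ((c : ℝ) + 1) / al (j + 1))
    have h2 := halpos (j + 1)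
    rw [div_le_iff₀ h2] at h1
    rw [div_mul_eq_mul_div, le_div_iff₀ (by positivity)]
    calc ((A : ℝ) + 2) * (c + 1) ≤ _ := h1
      _ = al (j + 1) * Ju j := by rw [mul_comm]
  · intro n hn j hj i hi N hN1 hN2
    have e1 : ((n1 : ℕ) : ℝ) ≤ n := le_trans (by
      exact_mod_cast (le_max_left n1 n2).trans (le_max_left _ _)) hn
    have e2 : ((n2 : ℕ) : ℝ) ≤ n := le_trans (by
      exact_mod_cast (le_max_right n1 n2).trans (le_max_left _ _)) hn
    have e3 : ((n3 : ℕ) : ℝ) ≤ n := le_trans (by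
      exact_mod_cast (le_max_left n3 1).trans (le_max_right _ _)) hn
    have e4 : (1 : ℝ) ≤ n := le_trans (by
      exact_mod_cast (le_max_right n3 1).trans (le_max_right _ _)) hn
    have hn0 : 0 < n := by linarith
    have hmono : ∀ {x y : ℝ}, x ≤ y → n ^ x ≤ n ^ y := fun h =>
      Real.rpow_le_rpow_of_exponent_le e4 h
    have h8 : 8 * al 0 ≤ 2 * ga j i := by
      have h1 : ga j 0 ≤ ga j i := monotone_nat_of_le_succ (hgam j) (Nat.zero_le i)
      have h2 : ga j 0 = 4 * al j := by simp [hga]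
      have h3 := hle0 j
      linarith
    have hpow : ∀ (x : ℝ) (m : ℕ), (n ^ x) ^ m = n ^ (x * m) := fun x m => by
      rw [← Real.rpow_natCast, ← Real.rpow_mul hn0.le]
    have halj := halpos (j + 1)
    have hal1 := hleb (j + 1)
    refine ⟨⟨?_, ?_, ?_, ?_, ?_, ?_, ?_, ?_, ?_, ?_⟩, hn3 n e3, ?_⟩
    · exact (hn1 n e1).trans (hmono h8)
    · exact Real.rpow_pos_of_pos hn0 _
    · rw [hpow, ← Real.rpow_add hn0]
      refine Real.rpow_le_one_of_one_le_of_nonpos e4 ?_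
      have h1 := hga1 j i
      have h2 := hgapos j i
      nlinarith
    · rw [← Real.rpow_add hn0]
      refine Real.one_le_rpow e4 ?_
      have h1 := hgale j hj (i + 1) (by omega)
      linarith
    · exact Real.rpow_pos_of_pos hn0 _
    · rw [hpow, ← Real.rpow_add hn0]
      refine Real.rpow_le_one_of_one_le_of_nonpos e4 ?_
      have h1 : al (j + 1) / (c + 1) * c ≤ al (j + 1) := by
        rw [div_mul_eq_mul_div, div_le_iff₀ (by positivity)]
        nlinarith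
      linarith
    · rw [← Real.rpow_add hn0]
      refine Real.one_le_rpow e4 ?_
      linarith
    · rw [hpow]
    · rw [hpow]
      refine hmono ?_
      unfold be
      rw [mul_assoc, mul_assoc, ← mul_assoc 2, mul_one_div, div_mul_eq_mul_div, div_le_div_iff₀
        (by positivity) (by norm_num)]
      nlinarith
    · rw [hpow]
      have h1 : n ^ (3 / 4 : ℝ) = n ^ (al 0 / 100) * n ^ (3 / 4 - al 0 / 100 : ℝ) := by
        rw [← Real.rpow_add hn0]
        congr 1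
        ring
      rw [h1] at hN1
      have h2 : n ^ (3 / 4 - al 0 / 100 : ℝ) ≤ N :=
        le_of_mul_le_mul_left hN1 (Real.rpow_pos_of_pos hn0 _)
      refine (hmono ?_).trans h2
      have h3 := hleb 0
      have h4 : be c ≤ 1 := by
        unfold be
        rw [div_le_one (by positivity)]
        nlinarith
      push_cast
      linarith
    · have hNpos : 0 < N := by
        by_contra hcon
        rw [not_lt] at hcon
        have h1 : n ^ (al 0 / 100) * N ≤ 0 :=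
          mul_nonpos_of_nonneg_of_nonpos (Real.rpow_nonneg hn0.le _) hcon
        have h2 : 0 < n ^ (3 / 4 : ℝ) := Real.rpow_pos_of_pos hn0 _
        linarith
      calc Real.log N ≤ Real.log n := Real.log_le_log hNpos hN2
        _ ≤ n ^ (8 * al 0) := hn2 n e2
        _ ≤ _ := hmono h8

end Vale.Agent.P065.UB.H602
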