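import Vale.Agent.P065.UB.P.Defs
import Vale.Agent.P065.UB.H139.Aff
import Vale.Agent.P065.UB.H602.Hull

/-!
# P065, upper bound, line P: un-normalised windows and the affine normalisation (helper602)
-/

set_option autoImplicit false

namespace Vale.Agent.P065.UB.H602

open Finset P H139

open Classical in
/-- un-normalised windows: abscissas in `[x0, x0 + D]`, slopes in `[t0, t0 + T]` -/
structure Raw (K lam N del x0 D t0 T : ℝ) (P : Finset Pt) (k : ℕ) (Q : Finset Pt)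
    (W : Finset ℕ) (a b : ℕ → ℝ) : Prop where
  good : Good P
  sub : Q ⊆ P
  D0 : 0 < D
  T0 : 0 < T
  box : ∀ p ∈ Q, x0 ≤ p.1 ∧ p.1 ≤ x0 + D
  del0 : 0 < del
  len : ∀ w ∈ W, del ≤ b w - a w ∧ b w - a w ≤ 2 * del
  unit : ∀ w ∈ W, t0 ≤ a w ∧ b w ≤ t0 + T
  disj : ∀ w ∈ W, ∀ w' ∈ W, w ≠ w' → b w < a w' ∨ b w' < a w
  cardQ : (#Q : ℝ) ≤ N
  cardW : (#W : ℝ) ≤ K * lam ^ 2
  cardW' : lam ^ 2 ≤ K * #W
  tch : ∀ w ∈ W, lam * #(Tch P k Q (Set.Icc (a w) (b w))) ≤ K * N
  bd : ∀ w ∈ W, lam * #(EdBd P k Q (Set.Icc (a w) (b w))) ≤ K * N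
  ed : ∀ w ∈ W, (N / lam) ^ (4 / 3 : ℝ) ≤ K * #(EW P k Q a b w)
  glob : (#(EdBd P k Q Set.univ) : ℝ) ≤ K * (lam * N)

/-- the normalised plane -/
noncomputable def nm (x0 D t0 T : ℝ) : Pt → Pt :=
  af (1 / D) (-x0 / D) (1 / (D * T)) (-t0 / (D * T)) 0

theorem nm_fst {x0 D t0 T : ℝ} (p : Pt) : (nm x0 D t0 T p).1 = (p.1 - x0) / D := by
  unfold nm
  rw [af_fst]
  ring

theorem am_nm {D t0 T : ℝ} (hD : 0 < D) (hT : 0 < T) (m : ℝ) :
    am (1 / D) (1 / (D * T)) (-t0 / (D * T)) m = (m - t0) / T := by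
  unfold am
  field_simp
  ring

open Classical in
/-- the affine normalisation -/
theorem nwin_of_raw {K kp Kp ks Kpp lam N del x0 D t0 T : ℝ} {P : Finset Pt} {k : ℕ}
    {Q : Finset Pt} {W : Finset ℕ} {a b : ℕ → ℝ} (h : Raw K lam N del x0 D t0 T P k Q W a b)
    (hT : ∀ x : ℝ, (#{w ∈ W | x ≤ a w ∧ a w ≤ x + T / Kpp} : ℝ) ≤ ks * lam ^ 2)
    (hU : ∀ x : ℝ, ∑ w ∈ W, (#{e ∈ EW P k Q a b w | x ≤ e.1.1 ∧ e.1.1 ≤ x + D / Kp} : ℝ) ≤
      kp * (lam ^ 2 * (N / lam) ^ (4 / 3 : ℝ))) :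
    NWin K kp Kp ks Kpp lam N (del / T) (P.image (nm x0 D t0 T)) k (Q.image (nm x0 D t0 T)) W
      (fun w => (a w - t0) / T) (fun w => (b w - t0) / T) := by
  have hD := h.D0
  have hT0 := h.T0
  have hα : 0 < 1 / D := by positivity
  have hγ : 0 < 1 / (D * T) := by positivity
  have hI : ∀ w m, am (1 / D) (1 / (D * T)) (-t0 / (D * T)) m ∈
      Set.Icc ((a w - t0) / T) ((b w - t0) / T) ↔ m ∈ Set.Icc (a w) (b w) := by
    intro w m
    rw [am_nm hD hT0, Set.mem_Icc, Set.mem_Icc, div_le_div_iff_of_pos_right hT0,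
      div_le_div_iff_of_pos_right hT0, sub_le_sub_iff_right, sub_le_sub_iff_right]
  constructor
  · exact good_af hα hγ h.good
  · exact image_subset_image h.sub
  · intro p hp
    obtain ⟨q, hq, rfl⟩ := mem_image.1 hp
    have := h.box q hq
    rw [nm_fst, le_div_iff₀ hD, div_le_iff₀ hD]
    constructor <;> linarith
  · exact div_pos h.del0 hT0
  · intro w hw
    have := h.len w hw
    have e1 : (b w - t0) / T - (a w - t0) / T = (b w - a w) / T := by ring
    rw [e1, ← mul_div_assoc, div_le_div_iff_of_pos_right hT0, div_le_div_iff_of_pos_right hT0]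
    exact this
  · intro w hw
    have := h.unit w hw
    rw [le_div_iff₀ hT0, div_le_iff₀ hT0]
    constructor <;> linarith
  · intro w hw w' hw' hne
    have := h.disj w hw w' hw' hne
    rw [div_lt_div_iff_of_pos_right hT0, div_lt_div_iff_of_pos_right hT0, sub_lt_sub_iff_right,
      sub_lt_sub_iff_right]
    exact this
  · exact (Nat.cast_le.2 card_image_le).trans h.cardQ
  · exact h.cardW
  · exact h.cardW'
  · intro w hw
    have e1 : #(Tch (P.image (nm x0 D t0 T)) k (Q.image (nm x0 D t0 T))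
        (Set.Icc ((a w - t0) / T) ((b w - t0) / T))) = #(Tch P k Q (Set.Icc (a w) (b w))) :=
      card_Tch_af hα hγ P k Q (hI w)
    rw [e1]
    exact h.tch w hw
  · intro w hw
    have e1 : #(EdBd (P.image (nm x0 D t0 T)) k (Q.image (nm x0 D t0 T))
        (Set.Icc ((a w - t0) / T) ((b w - t0) / T))) = #(EdBd P k Q (Set.Icc (a w) (b w))) :=
      card_EdBd_af hα hγ P k Q (hI w)
    rw [e1]
    exact h.bd w hw
  · intro w hw
    have e1 : #(EW (P.image (nm x0 D t0 T)) k (Q.image (nm x0 D t0 T))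
        (fun w => (a w - t0) / T) (fun w => (b w - t0) / T) w) = #(EW P k Q a b w) :=
      card_EdIn_af hα hγ P k Q (hI w)
    rw [e1]
    exact h.ed w hw
  · have e1 : #(EdBd (P.image (nm x0 D t0 T)) k (Q.image (nm x0 D t0 T)) Set.univ)
        = #(EdBd P k Q Set.univ) := card_EdBd_af hα hγ P k Q univ_iff
    rw [e1]
    exact h.glob
  · intro x
    refine le_trans (Nat.cast_le.2 (card_le_card ?_)) (hT (x * T + t0))
    intro w hw
    rw [mem_filter] at hw ⊢
    obtain ⟨hw1, h1, h2⟩ := hw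
    refine ⟨hw1, ?_, ?_⟩
    · rw [le_div_iff₀ hT0] at h1
      linarith
    · rw [div_le_iff₀ hT0] at h2
      have : (x + 1 / Kpp) * T = x * T + T / Kpp := by ring
      linarith
  · intro x
    refine le_trans (sum_le_sum fun w hw => ?_) (hU (x * D + x0))
    refine le_of_eq ?_
    have e1 := card_EdIn_filter_af (β := -x0 / D) (ε := 0) hα hγ P k Q (hI w)
      (fun e => x * D + x0 ≤ e.1.1 ∧ e.1.1 ≤ x * D + x0 + D / Kp)
      (fun e => x ≤ e.1.1 ∧ e.1.1 ≤ x + 1 / Kp) (fun e he => by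
        have e2 : (af (1 / D) (-x0 / D) (1 / (D * T)) (-t0 / (D * T)) 0 e.1).1
          = (e.1.1 - x0) / D := nm_fst e.1
        simp only [e2]
        rw [le_div_iff₀ hD, div_le_iff₀ hD]
        have e3 : (x + 1 / Kp) * D = x * D + D / Kp := by ring
        rw [e3]
        constructor
        · rintro ⟨h1, h2⟩
          constructor <;> linarith
        · rintro ⟨h1, h2⟩
          constructor <;> linarith)
    exact_mod_cast e1

end Vale.Agent.P065.UB.H602
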